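import Crest.Agent.R276.DivVal8_858
import Crest.Agent.X262.Geo.Val
import Crest.Agent.R276.DivVal13_858

-- ▼ part X262/Val40/Sum
section

/-!
# Row 262, VAL (helper40), part 1: the fundamental identity `∑ e f = n` for valuation rings

`L / K` finite separable, `A` a discrete valuation ring of `K`.

* `Ov A W` : `W` lies over `A`; `fdeg A W` : the residue degree; `fdeg_eq` : computed by places;
* `sum_ef` : finitely many `W` lie over `A`, all discrete, and `∑ e f = [L : K]`;
* `sum_ef'` : the same for an indexed family of places.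
-/

set_option autoImplicit false
set_option linter.style.haveILetI false

noncomputable section

namespace Crest.Agent.X262.Val40

open IsLocalRing IsDedekindDomain Crest.Agent.R276.DivVal_858

variable {K L : Type*} [Field K] [Field L] [Algebra K L]

/-- `W` lies over `A` -/
def Ov (A : ValuationSubring K) (W : ValuationSubring L) : Prop :=
  ∀ x : K, algebraMap K L x ∈ W ↔ x ∈ A

variable {A : ValuationSubring K} {W : ValuationSubring L}

theorem ov_iff : Ov A W ↔ W.comap (algebraMap K L) = A :=
  ⟨fun h => by ext x; exact h x, fun h x => by rw [← h]; rfl⟩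

theorem lt_one_iff_inv {F : Type*} [Field F] (V : ValuationSubring F) {x : F} (hx : x ≠ 0) :
    V.valuation x < 1 ↔ x⁻¹ ∉ V := by
  rw [← V.valuation_le_one_iff, map_inv₀, not_le,
    one_lt_inv₀ (zero_lt_iff.2 (by simpa using hx))]

theorem Ov.lt_iff (h : Ov A W) (x : K) :
    W.valuation (algebraMap K L x) < 1 ↔ A.valuation x < 1 := by
  by_cases hx : x = 0
  · simp [hx]
  · rw [lt_one_iff_inv W (by simpa using hx), lt_one_iff_inv A hx, ← map_inv₀, h]

theorem Ov.le_iff (h : Ov A W) (x y : K) :
    W.valuation (algebraMap K L x) ≤ W.valuation (algebraMap K L y) ↔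
      A.valuation x ≤ A.valuation y := by
  by_cases hy : y = 0
  · simp [hy]
  · have h1 : 0 < A.valuation y := zero_lt_iff.2 (by simpa using hy)
    have h2 : 0 < W.valuation (algebraMap K L y) := zero_lt_iff.2 (by simpa using hy)
    rw [← div_le_one₀ h1, ← div_le_one₀ h2, ← map_div₀, ← map_div₀, ← map_div₀,
      ValuationSubring.valuation_le_one_iff, ValuationSubring.valuation_le_one_iff, h]

theorem Ov.eq_iff (h : Ov A W) (x y : K) :
    W.valuation (algebraMap K L x) = W.valuation (algebraMap K L y) ↔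
      A.valuation x = A.valuation y := by
  rw [le_antisymm_iff, le_antisymm_iff, h.le_iff, h.le_iff]

theorem Ov.eq_one_iff (h : Ov A W) (x : K) :
    W.valuation (algebraMap K L x) = 1 ↔ A.valuation x = 1 := by
  simpa using h.eq_iff x 1

theorem Ov.ne_top (h : Ov A W) (hA : A ≠ ⊤) : W ≠ ⊤ := by
  rintro rfl
  exact hA (eq_top_iff.2 fun x _ => (h x).1 (ValuationSubring.mem_top _))

/-- the inclusion of valuation rings -/
def Ov.incl (h : Ov A W) : A →+* W :=
  ((algebraMap K L).comp A.subtype).codRestrict W fun x => (h x).2 x.2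

@[simp] theorem Ov.coe_incl (h : Ov A W) (x : A) : (h.incl x : L) = algebraMap K L x := rfl

instance (h : Ov A W) : IsLocalHom h.incl where
  map_nonunit x hx := by
    rw [ValuationSubring.valuation_eq_one_iff] at hx ⊢
    exact (h.eq_one_iff x).1 hx

open Classical in
/-- the residue degree -/
def fdeg (A : ValuationSubring K) (W : ValuationSubring L) : ℕ :=
  if h : Ov A W then
    letI := (ResidueField.map h.incl).toAlgebra
    Module.finrank (ResidueField A) (ResidueField W)
  else 0

/-- a surjective place identifies the residue field -/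
def resEquiv {F E : Type*} [Field F] [Field E] (V : ValuationSubring F) (p : V →+* E)
    (hp : Function.Surjective p) : ResidueField V ≃+* E :=
  haveI : IsLocalHom p := IsLocalHom.of_surjective p hp
  RingEquiv.ofBijective (ResidueField.lift p) ⟨RingHom.injective _, fun y => by
    obtain ⟨x, rfl⟩ := hp y
    exact ⟨residue V x, ResidueField.lift_residue_apply p x⟩⟩

@[simp] theorem resEquiv_residue {F E : Type*} [Field F] [Field E] (V : ValuationSubring F)
    (p : V →+* E) (hp : Function.Surjective p) (x : V) : resEquiv V p hp (residue V x) = p x :=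
  haveI : IsLocalHom p := IsLocalHom.of_surjective p hp
  ResidueField.lift_residue_apply p x

/-- the residue degree, computed by surjective places -/
theorem fdeg_eq (h : Ov A W) {E₀ E₁ : Type*} [Field E₀] [Field E₁] [Algebra E₀ E₁]
    (p : A →+* E₀) (hp : Function.Surjective p) (q : W →+* E₁) (hq : Function.Surjective q)
    (hc : ∀ x : A, q (h.incl x) = algebraMap E₀ E₁ (p x)) :
    fdeg A W = Module.finrank E₀ E₁ := by
  rw [fdeg, dif_pos h]
  letI := (ResidueField.map h.incl).toAlgebra
  refine Algebra.finrank_eq_of_equiv_equiv (resEquiv A p hp) (resEquiv W q hq) ?_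
  ext x
  obtain ⟨x, rfl⟩ := residue_surjective x
  change algebraMap E₀ E₁ (resEquiv A p hp (residue A x)) =
    resEquiv W q hq (ResidueField.map h.incl (residue A x))
  rw [ResidueField.map_residue, resEquiv_residue, resEquiv_residue, hc]

theorem IsUnif.max_eq {F : Type*} [Field F] {V : ValuationSubring F} {τ : V}
    (h : IsUnif V (τ : F)) : maximalIdeal V = Ideal.span {τ} := by
  ext y
  rw [ValuationSubring.valuation_lt_one_iff, Ideal.mem_span_singleton]
  refine ⟨fun hy => ?_, fun ⟨c, hc⟩ => ?_⟩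
  · have h1 := h.max y hy
    have h2 : (y : F) / τ ∈ V := by
      rw [← V.valuation_le_one_iff, map_div₀]
      exact div_le_one_of_le₀ h1 zero_le
    exact ⟨⟨_, h2⟩, Subtype.ext (by simp [mul_div_cancel₀ _ h.ne])⟩
  · rw [hc, MulMemClass.coe_mul, map_mul]
    exact (mul_le_of_le_one_right' (V.valuation_le_one c)).trans_lt h.lt

theorem IsUnif.mem {F : Type*} [Field F] {V : ValuationSubring F} {τ : F}
    (h : IsUnif V τ) : τ ∈ V := (V.valuation_le_one_iff τ).1 h.lt.le

theorem IsUnif.ne_top {F : Type*} [Field F] {V : ValuationSubring F} {τ : F}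
    (h : IsUnif V τ) : V ≠ ⊤ := by
  rintro rfl
  exact (lt_one_iff_inv _ h.ne).1 h.lt (ValuationSubring.mem_top _)

section Main

variable [FiniteDimensional K L] [Algebra.IsSeparable K L] [IsDiscreteValuationRing A]

/-- the valuation rings over `A` are the localisations of the integral closure -/
theorem exists_hos (h : Ov A W) :
    letI := IsIntegralClosure.isDedekindDomain A K L (integralClosure A L)
    letI := IsIntegralClosure.isFractionRing_of_finite_extension A K L (integralClosure A L)
    ∃ v : HeightOneSpectrum (integralClosure A L), v.valuationSubringAtPrime L = W := by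
  letI := IsIntegralClosure.isDedekindDomain A K L (integralClosure A L)
  letI := IsIntegralClosure.isFractionRing_of_finite_extension A K L (integralClosure A L)
  obtain ⟨t, ht⟩ := exists_isUnif A
  have hB : ∀ b : integralClosure A L, (b : L) ∈ W := fun b => by
    letI : Algebra A W := h.incl.toAlgebra
    haveI : IsScalarTower A W L := IsScalarTower.of_algebraMap_eq fun _ => rfl
    obtain ⟨y, hy⟩ := IsIntegrallyClosed.isIntegral_iff.mp (IsIntegral.tower_top (A := W) b.2)
    rw [← hy]
    exact y.2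
  let j : integralClosure A L →+* W := (integralClosure A L).val.toRingHom.codRestrict W hB
  let q : Ideal (integralClosure A L) := (maximalIdeal W).comap j
  have hq : ∀ b, b ∈ q ↔ W.valuation (b : L) < 1 := fun b =>
    ValuationSubring.valuation_lt_one_iff W (j b)
  have hne : q ≠ ⊥ := fun h0 => by
    have h1 : algebraMap A (integralClosure A L) ⟨t, IsUnif.mem ht⟩ ∈ q :=
      (hq _).2 ((h.lt_iff t).2 ht.lt)
    rw [h0, Ideal.mem_bot] at h1
    have h2 : algebraMap K L t = 0 := congrArg Subtype.val h1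
    exact ht.ne (by simpa using h2)
  refine ⟨⟨q, inferInstance, hne⟩, ValuationSubring.eq_of_le_of_ne_top _ ?_
    (h.ne_top (IsUnif.ne_top ht))⟩
  rintro x ⟨a, s, hs, rfl⟩
  have h1 : W.valuation (s : L) = 1 :=
    le_antisymm ((W.valuation_le_one_iff _).2 (hB s)) (not_lt.1 fun h2 => hs ((hq s).2 h2))
  refine mul_mem (hB a) ?_
  rw [← W.valuation_le_one_iff]
  change W.valuation ((s : L)⁻¹) ≤ 1
  rw [map_inv₀, h1, inv_one]

omit [IsDiscreteValuationRing A] in
/-- membership in the centre -/
theorem hos_lt [IsDedekindDomain A] :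
    letI := IsIntegralClosure.isDedekindDomain A K L (integralClosure A L)
    letI := IsIntegralClosure.isFractionRing_of_finite_extension A K L (integralClosure A L)
    ∀ (v : HeightOneSpectrum (integralClosure A L)) (b : integralClosure A L),
      (v.valuationSubringAtPrime L).valuation (b : L) < 1 ↔ b ∈ v.asIdeal := by
  letI := IsIntegralClosure.isDedekindDomain A K L (integralClosure A L)
  letI := IsIntegralClosure.isFractionRing_of_finite_extension A K L (integralClosure A L)
  intro v b
  rw [v.valuationSubringAtPrime_eq_valuationSubring,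
    ← (Valuation.isEquiv_valuation_valuationSubring (v.valuation L)).lt_one_iff_lt_one]
  exact v.valuation_lt_one_iff_mem b

theorem hos_over :
    letI := IsIntegralClosure.isDedekindDomain A K L (integralClosure A L)
    ∀ v : HeightOneSpectrum (integralClosure A L), v.asIdeal.LiesOver (maximalIdeal A) := by
  letI := IsIntegralClosure.isDedekindDomain A K L (integralClosure A L)
  intro v
  haveI := v.isMaximal
  exact ⟨(IsLocalRing.eq_maximalIdeal (Ideal.isMaximal_comap_of_isIntegral_of_isMaximal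
    (R := A) v.asIdeal)).symm⟩

theorem hos_ov :
    letI := IsIntegralClosure.isDedekindDomain A K L (integralClosure A L)
    letI := IsIntegralClosure.isFractionRing_of_finite_extension A K L (integralClosure A L)
    ∀ v : HeightOneSpectrum (integralClosure A L), Ov A (v.valuationSubringAtPrime L) := by
  letI := IsIntegralClosure.isDedekindDomain A K L (integralClosure A L)
  letI := IsIntegralClosure.isFractionRing_of_finite_extension A K L (integralClosure A L)
  intro v x
  have h1 : ∀ a : A, algebraMap K L a ∈ v.valuationSubringAtPrime L := fun a =>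
    (algebraMap (integralClosure A L) (v.valuationSubringAtPrime L)
      (algebraMap A (integralClosure A L) a)).2
  refine ⟨fun hx => ?_, fun hx => h1 ⟨x, hx⟩⟩
  by_contra hc
  have hx0 : x ≠ 0 := fun h => hc (h ▸ A.zero_mem)
  have h2 : x⁻¹ ∈ A := (A.mem_or_inv_mem x).resolve_left hc
  have h3 : (⟨x⁻¹, h2⟩ : A) ∈ maximalIdeal A := by
    rw [ValuationSubring.valuation_lt_one_iff, lt_one_iff_inv A (inv_ne_zero hx0), inv_inv]
    exact hc
  haveI := hos_over (K := K) (L := L) (A := A) v
  rw [Ideal.mem_of_liesOver v.asIdeal (maximalIdeal A), ← hos_lt (K := K)] at h3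
  change (v.valuationSubringAtPrime L).valuation (algebraMap K L x⁻¹) < 1 at h3
  rw [lt_one_iff_inv _ (by simpa using hx0), map_inv₀, inv_inv] at h3
  exact h3 hx


end Main

/-- `x` has order `e` at the discrete valuation ring `V` -/
def IsOrd {F : Type*} [Field F] (V : ValuationSubring F) (x : F) (e : ℕ) : Prop :=
  ∃ τ, IsUnif V τ ∧ V.valuation x = V.valuation τ ^ e

theorem IsUnif.val_eq {F : Type*} [Field F] {V : ValuationSubring F} {τ τ' : F} (h : IsUnif V τ)
    (h' : IsUnif V τ') : V.valuation τ = V.valuation τ' :=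
  le_antisymm (h'.max _ h.lt) (h.max _ h'.lt)

theorem IsOrd.val_eq {F : Type*} [Field F] {V : ValuationSubring F} {x τ : F} {e : ℕ}
    (h : IsOrd V x e) (hτ : IsUnif V τ) : V.valuation x = V.valuation τ ^ e := by
  obtain ⟨τ', h1, h2⟩ := h
  rw [h2, IsUnif.val_eq h1 hτ]

theorem IsOrd.unique {F : Type*} [Field F] {V : ValuationSubring F} {x : F} {e e' : ℕ}
    (h : IsOrd V x e) (h' : IsOrd V x e') : e = e' := by
  obtain ⟨τ, h1, h2⟩ := h
  have h3 : 0 < V.valuation τ := zero_lt_iff.2 (by simpa using h1.ne)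
  exact (pow_right_strictAnti₀ h3 h1.lt).injective (h2.symm.trans (h'.val_eq h1))


section Main2

variable [FiniteDimensional K L] [Algebra.IsSeparable K L] [IsDiscreteValuationRing A]

theorem hos_ef {t : K} (ht : IsUnif A t) :
    letI := IsIntegralClosure.isDedekindDomain A K L (integralClosure A L)
    letI := IsIntegralClosure.isFractionRing_of_finite_extension A K L (integralClosure A L)
    ∀ v : HeightOneSpectrum (integralClosure A L),
      IsOrd (v.valuationSubringAtPrime L) (algebraMap K L t) (v.asIdeal.ramificationIdx A) ∧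
      fdeg A (v.valuationSubringAtPrime L) = v.asIdeal.inertiaDeg A := by
  letI := IsIntegralClosure.isDedekindDomain A K L (integralClosure A L)
  letI := IsIntegralClosure.isFractionRing_of_finite_extension A K L (integralClosure A L)
  intro v
  haveI := hos_over (K := K) (L := L) (A := A) v
  haveI := v.isMaximal
  constructor
  · let b : integralClosure A L := algebraMap A _ ⟨t, IsUnif.mem ht⟩
    have hb : (b : L) = algebraMap K L t := rfl
    have hb0 : b ≠ 0 := fun h => ht.ne (by simpa [h] using hb.symm)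
    have hm : (maximalIdeal A).map (algebraMap A (integralClosure A L)) = Ideal.span {b} := by
      rw [IsUnif.max_eq (τ := ⟨t, IsUnif.mem ht⟩) ht, Ideal.map_span, Set.image_singleton]
    obtain ⟨π, hπ⟩ := v.valuation_exists_uniformizer L
    have he := Valuation.isEquiv_valuation_valuationSubring (v.valuation L)
    have hπ0 : π ≠ 0 := by
      rintro rfl
      exact WithZero.exp_ne_zero (hπ.symm.trans (map_zero _))
    rw [v.valuationSubringAtPrime_eq_valuationSubring]
    refine ⟨π, ⟨he.lt_one_iff_lt_one.1 ?_, hπ0, fun y hy => (he y π).1 ?_⟩, ?_⟩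
    · rw [hπ, ← WithZero.exp_zero, WithZero.exp_lt_exp]
      norm_num
    · rw [hπ]
      have h1 := he.lt_one_iff_lt_one.2 hy
      by_cases h0 : v.valuation L y = 0
      · simp [h0]
      · rw [← WithZero.exp_log h0, ← WithZero.exp_zero, WithZero.exp_lt_exp] at h1
        rw [← WithZero.exp_log h0, WithZero.exp_le_exp]
        omega
    · rw [← map_pow, ← he.eq_iff, map_pow, hπ, ← hb]
      change v.valuation L (algebraMap (integralClosure A L) L b) = _
      rw [v.valuation_of_algebraMap, v.intValuation_eq_exp_neg_multiplicity hb0,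
        Ideal.IsDedekindDomain.ramificationIdx_eq_multiplicity (maximalIdeal A) v.asIdeal
          (by rw [hm]; simpa using hb0), hm, ← WithZero.exp_nsmul]
      simp
  · rw [Ideal.inertiaDeg_eq_of_isMaximal (maximalIdeal A) v.asIdeal]
    letI := Ideal.Quotient.field (maximalIdeal A)
    letI := Ideal.Quotient.field v.asIdeal
    let e := IsLocalization.AtPrime.equivQuotMaximalIdeal v.asIdeal (v.valuationSubringAtPrime L)
    refine fdeg_eq (hos_ov v) (Ideal.Quotient.mk _) Ideal.Quotient.mk_surjective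
      (e.symm.toRingHom.comp (Ideal.Quotient.mk _))
      (e.symm.surjective.comp Ideal.Quotient.mk_surjective) fun x => ?_
    change e.symm _ = Ideal.Quotient.mk _ (algebraMap A (integralClosure A L) x)
    rw [RingEquiv.symm_apply_eq, IsLocalization.AtPrime.equivQuotMaximalIdeal_apply_mk]
    rfl

variable (L A) in
theorem finite_ov : {W : ValuationSubring L | Ov A W}.Finite := by
  letI := IsIntegralClosure.isDedekindDomain A K L (integralClosure A L)
  letI := IsIntegralClosure.isFractionRing_of_finite_extension A K L (integralClosure A L)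
  haveI := IsIntegralClosure.finite A K L (integralClosure A L)
  have h1 : {v : HeightOneSpectrum (integralClosure A L) | True}.Finite := by
    refine Set.Finite.of_finite_image (f := fun v => v.asIdeal)
      ((Algebra.QuasiFinite.finite_primesOver (R := A) (S := integralClosure A L)
        (maximalIdeal A)).subset ?_) fun _ _ _ _ h => HeightOneSpectrum.ext h
    rintro _ ⟨v, -, rfl⟩
    exact ⟨v.isPrime, hos_over (K := K) v⟩
  refine (h1.image fun v => v.valuationSubringAtPrime L).subset fun W hW => ?_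
  obtain ⟨v, hv⟩ := exists_hos (show Ov A W from hW)
  exact ⟨v, trivial, hv⟩

/-- **the fundamental identity** -/
theorem sum_ef {t : K} (ht : IsUnif A t) {ι : Type*} [Fintype ι] (W : ι → ValuationSubring L)
    (hinj : Function.Injective W) (hW : ∀ V, Ov A V ↔ V ∈ Set.range W) (e : ι → ℕ)
    (he : ∀ i, IsOrd (W i) (algebraMap K L t) (e i)) :
    ∑ i, e i * fdeg A (W i) = Module.finrank K L := by
  letI := IsIntegralClosure.isDedekindDomain A K L (integralClosure A L)
  letI := IsIntegralClosure.isFractionRing_of_finite_extension A K L (integralClosure A L)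
  haveI := IsIntegralClosure.finite A K L (integralClosure A L)
  haveI : Module.IsTorsionFree A L := by
    rw [Module.isTorsionFree_iff_algebraMap_injective]
    exact (algebraMap K L).injective.comp Subtype.val_injective
  haveI := IsIntegralClosure.module_free A K L (integralClosure A L)
  haveI : Finite ((maximalIdeal A).primesOver (integralClosure A L)) :=
    Algebra.QuasiFinite.finite_primesOver _
  letI := Fintype.ofFinite ((maximalIdeal A).primesOver (integralClosure A L))
  rw [← IsIntegralClosure.rank A K L (integralClosure A L),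
    ← Ideal.sum_ramification_inertia_eq_finrank (maximalIdeal A)]
  choose v hv using fun i => exists_hos ((hW _).2 ⟨i, rfl⟩)
  refine Fintype.sum_bijective (fun i => ⟨(v i).asIdeal, (v i).isPrime, hos_over (K := K) _⟩)
    ⟨fun i j h => hinj ?_, fun q => ?_⟩ _ _ fun i => ?_
  · rw [← hv, ← hv, HeightOneSpectrum.ext (congrArg Subtype.val h)]
  · haveI := q.2.1
    haveI := q.2.2
    let u : HeightOneSpectrum (integralClosure A L) := ⟨q.1, q.2.1,
      Ideal.ne_bot_of_liesOver_of_ne_bot (IsDiscreteValuationRing.not_a_field A) q.1⟩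
    obtain ⟨i, hi⟩ := (hW _).1 (hos_ov u)
    refine ⟨i, Subtype.ext (Ideal.ext fun b => ?_)⟩
    change b ∈ (v i).asIdeal ↔ b ∈ u.asIdeal
    rw [← hos_lt (K := K), ← hos_lt (K := K), hv, hi]
  · obtain ⟨h1, h2⟩ := hos_ef ht (v i)
    rw [hv] at h1 h2
    rw [h2, (he i).unique h1]


end Main2

end Crest.Agent.X262.Val40
end
end

-- ▼ part X262/Val40/Pull

/-!
# Row 262, VAL (helper40), part 2: divisorial valuations in field extensions

`α : K →ₐ[k] L` an embedding of finitely generated fields, `W` a valuation ring of `L`.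

* `dn α W` : restriction, `rf α W` : the residue field extension, `ram α W` : ramification index;
* `dvs_dn`, `dvs_up`, `dim_rf`, `od_pb` : divisorial valuations and coefficients of pull-backs;
* `fin_up`, `sum_ram` : `∑ e f = deg α`;
* `finsum_pull` : **projection formula** for sums over divisorial valuations (also for `deg α = 0`).
-/

set_option autoImplicit false
set_option linter.style.haveILetI false

noncomputable section

namespace Crest.Agent.X262.Val40

open Crest.Agent.X277 Crest.Agent.X277.BD Crest.Agent.X277.Pst Crest.Agent.X277.BD.Cyc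
open Crest.Agent.X277.Neg (nv nv_triv IsNv isNv_nv)
open Crest.Agent.X262.Geo
open Crest.Agent.R276.DivVal_858
open WithZero

/-- sums over the fibres of a map -/
theorem finsum_fib {X Y R : Type*} [CommRing R] [IsDomain R] (π : X → Y) (w : X → R) (F : Y → R)
    {n : R} (hn : n ≠ 0) (h : ∀ y, F y ≠ 0 → {x | π x = y}.Finite ∧
      ∑ᶠ (x) (_ : π x = y), w x = n) : ∑ᶠ x, w x * F (π x) = n * ∑ᶠ y, F y := by
  classical
  by_cases hF : (Function.support F).Finite
  · have h1 : (⋃ y ∈ Function.support F, {x | π x = y}).Finite :=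
      hF.biUnion fun y hy => (h y hy).1
    have h2 : ∀ x, x ∈ h1.toFinset ↔ F (π x) ≠ 0 := fun x => by simp
    rw [finsum_eq_sum_of_support_subset (s := h1.toFinset) _
        fun x hx => (h2 x).2 (right_ne_zero_of_mul hx),
      finsum_eq_sum F hF, Finset.mul_sum,
      ← Finset.sum_fiberwise_of_maps_to (s := h1.toFinset) (t := hF.toFinset) (g := π)
        fun x hx => by simpa using (h2 x).1 hx]
    refine Finset.sum_congr rfl fun y hy => ?_
    have hy' : F y ≠ 0 := by simpa using hy
    obtain ⟨h3, h4⟩ := h y hy'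
    have h5 : h1.toFinset.filter (fun x => π x = y) = h3.toFinset := by
      ext x
      rw [Finset.mem_filter, h2, Set.Finite.mem_toFinset, Set.mem_ofPred_eq]
      exact ⟨fun h => h.2, fun h => ⟨h ▸ hy', h⟩⟩
    rw [h5, ← h4, show (∑ᶠ (x) (_ : π x = y), w x) = ∑ x ∈ h3.toFinset, w x from
      finsum_mem_eq_finite_toFinset_sum w h3, Finset.sum_mul]
    exact Finset.sum_congr rfl fun x hx => by rw [show π x = y by simpa using hx]
  · rw [finsum_of_infinite_support hF, mul_zero]
    refine finsum_of_infinite_support fun h1 => hF ((h1.image π).subset fun y hy => ?_)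
    by_contra hc
    refine hn ((h y hy).2.symm.trans (finsum_eq_zero_of_forall_eq_zero fun x => ?_))
    rw [finsum_eq_if]
    split_ifs with hx
    · exact by_contra fun h2 => hc ⟨x, mul_ne_zero h2 (hx ▸ hy), hx⟩
    · rfl

variable {k K L : Type} [Field k] [Field K] [Field L] [Algebra k K] [Algebra k L]

/-- restriction of a valuation ring -/
abbrev dn (α : K →ₐ[k] L) (W : RZ k L) : RZ k K := cm (α : K →+* L) (alg_ov α) W

variable {α : K →ₐ[k] L} {W : RZ k L} {V : RZ k K} {a : BD k K} {x y : K}

theorem mem_dn : x ∈ (dn α W).1 ↔ α x ∈ W.1 := Iff.rfl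

theorem v_dn_le : (dn α W).v x ≤ (dn α W).v y ↔ W.v (α x) ≤ W.v (α y) := v_cm_le_iff _ _

theorem v_dn_eq : (dn α W).v x = (dn α W).v y ↔ W.v (α x) = W.v (α y) := v_cm_eq_iff _ _

theorem v_dn_lt : (dn α W).v x < (dn α W).v y ↔ W.v (α x) < W.v (α y) := v_cm_lt_iff _ _

theorem v_dn_eq_one : (dn α W).v x = 1 ↔ W.v (α x) = 1 := by
  simpa using v_dn_eq (α := α) (W := W) (x := x) (y := 1)

theorem v_dn_lt_one : (dn α W).v x < 1 ↔ W.v (α x) < 1 := by
  simpa using v_dn_lt (α := α) (W := W) (x := x) (y := 1)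



theorem dn_surjective (α : K →ₐ[k] L) : Function.Surjective (dn α) := cm_surjective α

theorem ov_dn (α : K →ₐ[k] L) (W : RZ k L) :
    letI := α.toRingHom.toAlgebra
    Ov (dn α W).1 W.1 := fun _ => Iff.rfl

/-- the residue field extension -/
def rf (α : K →ₐ[k] L) (W : RZ k L) : Rf (dn α W) →ₐ[k] Rf W :=
  letI := α.toRingHom.toAlgebra
  { IsLocalRing.ResidueField.map (ov_dn α W).incl with
    commutes' := fun c => congrArg (IsLocalRing.residue W.1) (Subtype.ext (α.commutes c)) }

theorem rf_r (α : K →ₐ[k] L) (W : RZ k L) (x : K) :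
    rf α W ((plV (dn α W)).r x) = (plV W).r (α x) := by
  by_cases hx : x ∈ (dn α W).1
  · rw [Pl.r_eq _ hx, Pl.r_eq (plV W) (mem_dn.1 hx)]
    rfl
  · rw [show (plV (dn α W)).r x = 0 from dif_neg hx,
      show (plV W).r (α x) = 0 from dif_neg (mem_dn.not.1 hx), map_zero]

theorem exists_r (V : RZ k K) (z : Rf V) : ∃ x ∈ V.1, (plV V).r x = z := by
  obtain ⟨x, rfl⟩ := surj_plV V z
  exact ⟨x, x.2, Pl.r_coe _ _⟩

theorem deg_rf (α : K →ₐ[k] L) (W : RZ k L) :
    letI := α.toRingHom.toAlgebra
    deg (rf α W) = fdeg (dn α W).1 W.1 := by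
  letI := α.toRingHom.toAlgebra
  rw [fdeg, dif_pos (ov_dn α W)]
  rfl

theorem resInd_up {ι : Type*} {y : ι → K} (h : ResInd k (dn α W).1 y) :
    ResInd k W.1 fun i => α (y i) := by
  refine ⟨h.1, fun q hq => ?_⟩
  rw [← MvPolynomial.comp_aeval_apply]
  exact v_dn_eq_one.1 (h.2 q hq)

theorem ne_top_of_dn (h : (dn α W).1 ≠ ⊤) : W.1 ≠ ⊤ := fun h0 =>
  h (top_unique fun _ _ => mem_dn.2 (h0 ▸ trivial))

theorem val_of_top (h : V.1 = ⊤) (a : BD k K) : a.val V = 1 := by
  rw [← v_gen]
  exact Cns.un_iff_val.1 ⟨a.gen_ne V, h ▸ trivial, h ▸ trivial⟩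

theorem dn_ne_top (h : (pb α a).val W ≠ 1) : (dn α W).1 ≠ ⊤ := fun h0 =>
  h (val_mp_eq_one.2 (val_of_top h0 a))

theorem dvs_up (hd : dim k L = dim k K) (h : Dvs (dn α W)) : Dvs W := by
  obtain ⟨-, h0, y, h2⟩ := isDiv_iff.1 h
  rw [Dvs, dm_eq, hd]
  exact isDiv_iff.2 ⟨W.2, ne_top_of_dn h0, fun i => α (y i), resInd_up h2⟩

open Classical in
/-- the ramification index -/
def ram (α : K →ₐ[k] L) (W : RZ k L) : ℕ :=
  if h : ∃ e : ℕ, ∀ x, nv W (α x) = nv (dn α W) x ^ e then h.choose else 0

theorem isUnif_of_nv {v : Valuation K ℤᵐ⁰} (h : IsNv V v) {t : K} (ht : v t = exp (-1)) :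
    IsUnif V.1 t := by
  refine ⟨h.lt_one.1 ?_, ?_, fun y hy => (h.le_iff y t).1 ?_⟩
  · rw [ht, ← exp_zero, exp_lt_exp]
    norm_num
  · rintro rfl
    exact exp_ne_zero (ht.symm.trans (map_zero _))
  · have h1 := h.lt_one.2 hy
    by_cases h0 : v y = 0
    · simp [h0]
    · rw [← exp_log h0, ← exp_zero, exp_lt_exp] at h1
      rw [ht, ← exp_log h0, exp_le_exp]
      omega

theorem exists_ram {v : Valuation K ℤᵐ⁰} {w : Valuation L ℤᵐ⁰} (hv : IsNv (dn α W) v)
    (hw : IsNv W w) : ∃ e : ℕ, 0 < e ∧ ∀ x, w (α x) = v x ^ e := by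
  obtain ⟨t, ht⟩ := hv.unif
  have h0 := isUnif_of_nv hv ht
  have h1 : w (α t) ≠ 0 := by simpa using h0.ne
  have h2 : w (α t) < 1 := hw.lt_one.2 (v_dn_lt_one.1 h0.lt)
  rw [← exp_log h1, ← exp_zero, exp_lt_exp] at h2
  obtain ⟨e, he⟩ : ∃ e : ℕ, log (w (α t)) = -e := ⟨(-log (w (α t))).toNat, by omega⟩
  refine ⟨e, by omega, fun x => ?_⟩
  by_cases hx : x = 0
  · rw [hx, map_zero, map_zero, map_zero, zero_pow (by omega)]
  have h3 : v x ≠ 0 := by simpa using hx
  have h4 : v x = v (t ^ (-log (v x))) := by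
    rw [map_zpow₀, ht, ← exp_zsmul]
    simp [exp_log h3]
  rw [hw.eq_iff.2 (v_dn_eq.1 (hv.eq_iff.1 h4)), map_zpow₀, map_zpow₀, ← exp_log h1, he,
    ← exp_zsmul, ← exp_log h3, ← exp_nsmul, log_exp]
  congr 1
  simp [mul_comm]

variable [CharZero k] [Algebra.EssFiniteType k K] [Algebra.EssFiniteType k L]

theorem dvs_dn (h : Dvs W) (h0 : (dn α W).1 ≠ ⊤) : Dvs (dn α W) := by
  let := α.toRingHom.toAlgebra
  have : IsScalarTower k K L := IsScalarTower.of_algebraMap_eq fun c => (α.commutes c).symm
  exact (restrict_of_ne_top trdeg_eq_dim trdeg_eq_dim h h0).2.2.1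

theorem dn_ne_top' (hd : dim k L = dim k K) (h : Dvs W) : (dn α W).1 ≠ ⊤ := fun h0 => by
  let := α.toRingHom.toAlgebra
  have : IsScalarTower k K L := IsScalarTower.of_algebraMap_eq fun c => (α.commutes c).symm
  have h1 := (restrict_top trdeg_eq_dim trdeg_eq_dim h fun c =>
    mem_dn.1 (h0 ▸ ValuationSubring.mem_top c)).1
  omega

theorem dvs_dn_iff (hd : dim k L = dim k K) : Dvs (dn α W) ↔ Dvs W :=
  ⟨dvs_up hd, fun h => dvs_dn h (dn_ne_top' hd h)⟩

/-- the residue field extension has the same relative dimension -/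
theorem dim_rf (h : Dvs W) (h0 : (dn α W).1 ≠ ⊤) :
    dim k (Rf W) + dim k K = dim k (Rf (dn α W)) + dim k L := by
  rw [dim_Rf' h, dim_Rf' (dvs_dn h h0)]
  omega

theorem deg_rf_pos_iff (h : Dvs W) (h0 : (dn α W).1 ≠ ⊤) : 0 < deg (rf α W) ↔ 0 < deg α := by
  have := essFT_Rf h
  have := essFT_Rf (dvs_dn h h0)
  have := dim_rf h h0
  rw [deg_pos_iff, deg_pos_iff]
  omega

theorem ram_spec (h : Dvs W) (h0 : (dn α W).1 ≠ ⊤) :
    0 < ram α W ∧ ∀ x, nv W (α x) = nv (dn α W) x ^ ram α W := by
  obtain ⟨e, h1, h2⟩ := exists_ram (isNv_nv (dvs_dn h h0)) (isNv_nv h)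
  have h3 : ∀ x, nv W (α x) = nv (dn α W) x ^ ram α W := by
    rw [ram, dif_pos ⟨e, h2⟩]
    exact Exists.choose_spec (⟨e, h2⟩ : ∃ e : ℕ, ∀ x, nv W (α x) = nv (dn α W) x ^ e)
  refine ⟨Nat.pos_of_ne_zero fun h4 => ?_, h3⟩
  simpa [h4] using h3 0

theorem ram_pos (h : Dvs W) (h0 : (dn α W).1 ≠ ⊤) : 0 < ram α W := (ram_spec h h0).1

theorem nv_up (h : Dvs W) (h0 : (dn α W).1 ≠ ⊤) (x : K) :
    nv W (α x) = nv (dn α W) x ^ ram α W := (ram_spec h h0).2 x



/-- coefficients of a pull-back -/
theorem od_pb (h : Dvs W) (h0 : (dn α W).1 ≠ ⊤) (a : BD k K) :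
    od W (pb α a) = ram α W * od (dn α W) a := by
  rw [od_of_gen (a := pb α a) h (val_mp_gen a W).symm, od_of_gen (dvs_dn h h0) (v_gen a _)]
  change log (nv W (α _)) = _
  rw [nv_up h h0, log_pow, nsmul_eq_mul]

omit [Algebra.EssFiniteType k K] in
theorem od_pb_top (h : Dvs W) (h0 : (dn α W).1 = ⊤) (a : BD k K) : od W (pb α a) = 0 :=
  (od_eq_zero h).2 (not_not.1 fun h1 => dn_ne_top h1 h0)

omit [Algebra.EssFiniteType k K] in
theorem dn_ne_top_of_od (h : Dvs W) (h0 : od W (pb α a) ≠ 0) : (dn α W).1 ≠ ⊤ :=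
  fun h1 => h0 (od_pb_top h h1 a)

/-- **`∑ e f = n`** -/
theorem sum_ram (hd : dim k L = dim k K) (hV : Dvs V) : {W | dn α W = V}.Finite ∧
    ∑ᶠ (W) (_ : dn α W = V), ram α W * deg (rf α W) = deg α := by
  letI := α.toRingHom.toAlgebra
  haveI : IsScalarTower k K L := IsScalarTower.of_algebraMap_eq fun c => (α.commutes c).symm
  haveI : FiniteDimensional K L := Module.finite_of_finrank_pos ((deg_pos_iff α).2 hd)
  haveI : CharZero K := charZero_of_injective_algebraMap (algebraMap k K).injective
  haveI := dvr_of_isDiv (Slope.dm_eq_trdeg k K).symm hV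
  have h1 : ∀ W : RZ k L, dn α W = V ↔ Ov V.1 W.1 := fun W =>
    ⟨fun h => h ▸ ov_dn α W, fun h => Subtype.ext (ov_iff.1 h)⟩
  have h2 : {W | dn α W = V}.Finite :=
    Set.Finite.of_finite_image (f := Subtype.val) ((finite_ov L V.1).subset (by
      rintro _ ⟨W, hW, rfl⟩
      exact (h1 W).1 hW)) Subtype.val_injective.injOn
  refine ⟨h2, ?_⟩
  obtain ⟨t, ht⟩ := nv_unif hV
  rw [show (∑ᶠ (W) (_ : dn α W = V), ram α W * deg (rf α W)) = ∑ W ∈ h2.toFinset, _ from
    finsum_mem_eq_finite_toFinset_sum _ h2, ← Finset.sum_coe_sort]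
  have h3 : ∀ W : h2.toFinset, dn α W.1 = V := fun W => h2.mem_toFinset.1 W.2
  refine Eq.trans (Finset.sum_congr rfl fun W _ => ?_) (sum_ef (isUnif_of_nv (isNv_nv hV) ht)
    (fun W : h2.toFinset => W.1.1) (fun _ _ h => Subtype.ext (Subtype.ext h)) (fun U => ?_)
    (fun W => ram α W.1) fun W => ?_)
  · rw [deg_rf, h3]
  · refine ⟨fun h => ⟨⟨⟨U, fun c => ?_⟩, ?_⟩, rfl⟩, fun ⟨W, h⟩ => h ▸ (h1 _).1 (h3 W)⟩
    · rw [IsScalarTower.algebraMap_apply k K L]
      exact (h _).2 (V.2 c)
    · simpa using (h1 _).2 h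
  · have h4 : Dvs W.1 := dvs_up hd (h3 W ▸ hV)
    obtain ⟨τ, hτ⟩ := nv_unif h4
    refine ⟨τ, isUnif_of_nv (isNv_nv h4) hτ, ?_⟩
    rw [← map_pow, ← nv_eq_iff h4, map_pow, hτ]
    change nv W.1 (α t) = _
    rw [nv_up h4 (dn_ne_top' hd h4), h3, ht]


/-- **projection formula** -/
theorem finsum_pull {R : Type*} [CommRing R] [IsDomain R] [CharZero R] (α : K →ₐ[k] L)
    (a : BD k K) (g : RZ k K → R) (g' : RZ k L → R)
    (h : ∀ W, Dvs W → Dvs (dn α W) → od (dn α W) a ≠ 0 → g' W = deg (rf α W) * g (dn α W)) :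
    ∑ᶠ (W) (_ : Dvs W), (od W (pb α a) : R) * g' W =
      deg α * ∑ᶠ (V) (_ : Dvs V), (od V a : R) * g V := by
  classical
  have h1 : ∀ W, Dvs W → (h0 : (dn α W).1 ≠ ⊤) → (od W (pb α a) : R) * g' W =
      (ram α W * deg (rf α W) : ℕ) * ((od (dn α W) a : R) * g (dn α W)) := fun W hW h0 => by
    rw [od_pb hW h0]
    by_cases h2 : od (dn α W) a = 0
    · simp [h2]
    · rw [h W hW (dvs_dn hW h0) h2]
      push_cast
      ring
  rcases Nat.eq_zero_or_pos (deg α) with hα | hα
  · rw [hα, Nat.cast_zero, zero_mul]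
    refine finsum_eq_zero_of_forall_eq_zero fun W => ?_
    rw [finsum_eq_if]
    split_ifs with hW
    swap
    · rfl
    by_cases h0 : (dn α W).1 = ⊤
    · simp [od_pb_top hW h0]
    · have h2 := (deg_rf_pos_iff hW h0).not.2 (by omega)
      rw [h1 W hW h0, show deg (rf α W) = 0 by omega]
      simp
  have hd := (deg_pos_iff α).1 hα
  rw [← finsum_fib (dn α) (fun W => ((ram α W * deg (rf α W) : ℕ) : R)) _
    (Nat.cast_ne_zero.2 hα.ne') fun V hV => ?_]
  · refine finsum_congr fun W => ?_
    by_cases hW : Dvs W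
    · rw [finsum_eq_if, finsum_eq_if, if_pos hW, if_pos ((dvs_dn_iff hd).2 hW),
        h1 W hW (dn_ne_top' hd hW)]
    · rw [finsum_eq_if, finsum_eq_if, if_neg hW, if_neg ((dvs_dn_iff hd).not.2 hW), mul_zero]
  · have h2 : Dvs V := by
      by_contra h2
      exact hV (by rw [finsum_eq_if, if_neg h2])
    obtain ⟨h3, h4⟩ := sum_ram (α := α) hd h2
    refine ⟨h3, ?_⟩
    rw [← h4]
    exact ((finsum_mem_eq_finite_toFinset_sum _ h3).trans (Nat.cast_sum _ _).symm).trans
      (congrArg _ (finsum_mem_eq_finite_toFinset_sum _ h3).symm)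

end Crest.Agent.X262.Val40
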