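import Crest.Agent.X262.Tree87.Lin
import Crest.Agent.X262.Node22.Alg

/-!
# Row 262, VAL (helper40), part 3: configurations under field extension, gauge and reduction

* `ln_map`, `ea_map`, `sv_map`, `sz_map`, `dv_map`, `Eb_map` : extension of the ground field;
* `ln_scl`, `ea_gau`, `sv_gau`, `Eb_gau` : gauge;
* `Sq θ p q ρ` : commuting square of places; `red_sq` : reduction commutes with it up to gauge;
* `on_red` : the reduction along a component of the zero divisor lies on the target.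
-/

set_option autoImplicit false
set_option linter.unusedSectionVars false

noncomputable section

namespace Crest.Agent.X262.Val40

open Crest.Agent.X277 Crest.Agent.X277.BD Crest.Agent.X262.Vb Crest.Agent.X262.Tree87
open Crest.Agent.X262.Node22 (scl chr pv_scl mem_Nm_scl chr_ne nz_scl on_scl)

variable {J : Type} [Fintype J] [DecidableEq J] {io : J → Type} [∀ j, Fintype (io j)]
  [∀ j, DecidableEq (io j)] {A : Type} [Fintype A] {I P : Type} [Fintype I] [Fintype P]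
  {K L E E' : Type} [Field K] [Algebra ℂ K] [Field L] [Algebra ℂ L] [Field E] [Algebra ℂ E]
  [Field E'] [Algebra ℂ E'] (T : Tgt io A)

/-! ### field extension -/

theorem ln_map (θ : K →ₐ[ℂ] L) (y : Pnt io K) (j : J) :
    ln (fun j i => θ (y j i)) j = pb θ (ln y j) := (pb_mxf θ _).symm

theorem lw_map (θ : K →ₐ[ℂ] L) (κ : J → ℕ) (y : Pnt io K) :
    lw κ (fun j i => θ (y j i)) = pb θ (lw κ y) := by
  simp only [lw, map_sum, map_nsmul, ln_map]

theorem pv_map (θ : K →ₐ[ℂ] L) (y : Pnt io K) (q : MvPolynomial (Vr io) ℂ) :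
    pv (fun j i => θ (y j i)) q = θ (pv y q) := (MvPolynomial.comp_aeval_apply _ θ q).symm

theorem nz_map (θ : K →ₐ[ℂ] L) {y : Pnt io K} (h : NZ y) : NZ fun j i => θ (y j i) :=
  fun j => (h j).imp fun _ hi => (map_ne_zero θ).2 hi

theorem on_map_iff (θ : K →ₐ[ℂ] L) {y : Pnt io K} : (T.On fun j i => θ (y j i)) ↔ T.On y :=
  forall_congr' fun a => by rw [pv_map, map_eq_zero]

theorem ea_map (θ : K →ₐ[ℂ] L) (z : Cfg io I K) : (z.map θ).ea T = fun x => pb θ (z.ea T x) :=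
  funext fun _ => lw_map θ _ _

theorem sv_map (θ : K →ₐ[ℂ] L) (z : Cfg io I K) : (z.map θ).sv T = fun x => θ (z.sv T x) :=
  funext fun _ => pv_map θ _ _

theorem sz_map (θ : K →ₐ[ℂ] L) (u : P → K) (a : P → BD ℂ K) :
    sz (fun x => θ (u x)) (fun x => pb θ (a x)) = pb θ (sz u a) := by
  classical
  have h : (Finset.univ.filter fun x => θ (u x) ≠ 0) = Finset.univ.filter fun x => u x ≠ 0 :=
    Finset.filter_congr fun x _ => map_ne_zero θ
  unfold sz
  simp only [h]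
  split_ifs with h1
  · rw [Finset.apply_sup'_eq_sup'_comp h1 (pb θ) (pb_sup θ)]
    exact Finset.sup'_congr h1 rfl fun x _ => by simp [pb_pr]
  · exact (map_zero _).symm

theorem dv_map (θ : K →ₐ[ℂ] L) (z : Cfg io I K) : (z.map θ).dv T = pb θ (z.dv T) := by
  rw [Cfg.dv, sv_map, ea_map, sz_map, Cfg.dv, map_neg]

theorem Nm_map (θ : K →ₐ[ℂ] L) (y : Pnt io K) :
    T.Nm (fun j i => θ (y j i)) = mapS θ (T.Nm y) := by
  rw [Tgt.Nm, Tgt.Nm, Tgt.jac, Tgt.jac, Matrix.toLin'_apply', Matrix.toLin'_apply', mapS_range]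
  congr 2
  ext a v
  exact pv_map θ y _

theorem Vt_map (θ : K →ₐ[ℂ] L) (z : Cfg io I K) : (z.map θ).Vt T = mapS θ (z.Vt T) := by
  simp only [Cfg.Vt, mapS_iInf, mapS_comap]
  rfl

theorem Eb_map (θ : K →ₐ[ℂ] L) (z : Cfg io I K) : (z.map θ).Eb T = mapS θ (z.Eb T) := by
  simp only [Cfg.Eb, mapS_inf, mapS_iInf, mapS_comap, Vt_map, ← Nm_map]
  rfl

/-! ### gauge -/

theorem ln_scl {c : J → E} (hc : ∀ j, c j ≠ 0) {y : Pnt io E} (h : NZ y) (j : J) :
    ln (scl c y) j = ln y j + pr ℂ (c j) := by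
  refine (eq_mxf (fun i V => ?_) fun V => ?_).symm
  · rw [val_add, val_pr (hc j), scl, map_mul, mul_comm]
    exact mul_le_mul_left (mem_Sec_mxf (y j) i V) _
  · obtain ⟨i, hi⟩ := exists_val_mxf (k := ℂ) (h j) V
    exact ⟨i, by rw [val_add, val_pr (hc j), scl, map_mul, mul_comm, hi, ln]⟩

theorem lw_scl {c : J → E} (hc : ∀ j, c j ≠ 0) {y : Pnt io E} (h : NZ y) (κ : J → ℕ) :
    lw κ (scl c y) = lw κ y + pr ℂ (chr c κ) := by
  rw [chr, pr_prod _ fun j _ => pow_ne_zero _ (hc j), lw, lw, ← Finset.sum_add_distrib]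
  exact Finset.sum_congr rfl fun j _ => by rw [ln_scl hc h, pr_pow (hc j), nsmul_add]

theorem ea_gau {c : I → J → E} (hc : ∀ q j, c q j ≠ 0) {z : Cfg io I E} (h : z.NZ) :
    (z.gau c).ea T = fun x => z.ea T x + pr ℂ (chr (c x.2) (T.k x.1)) :=
  funext fun x => lw_scl (hc x.2) (h x.2) _

theorem sv_gau (c : I → J → E) (z : Cfg io I E) :
    (z.gau c).sv T = fun x => chr (c x.2) (T.k x.1) * z.sv T x :=
  funext fun x => pv_scl (T.hom x.1) _ _


theorem Eb_gau {c : I → J → E} (hc : ∀ q j, c q j ≠ 0) (z : Cfg io I E) :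
    (z.gau c).Eb T = sclS (fun x => chr (c x.2) (T.k x.1)) (z.Eb T) := by
  ext w
  rw [mem_sclS_iff fun x => chr_ne (hc _) _]
  simp only [Cfg.Eb, Cfg.Vt, Submodule.mem_inf, Submodule.mem_iInf, Submodule.mem_comap]
  refine and_congr (forall_congr' fun a => mem_sclS_iff fun q => chr_ne (hc q) _)
    (forall_congr' fun q => ?_)
  rw [← mem_Nm_scl T (hc q) (y := z.y q)]
  refine iff_of_eq (congrArg (· ∈ T.Nm (scl (c q) (z.y q))) (funext fun a => ?_))
  simp [LinearMap.funLeft, chr_ne (hc q)]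

theorem gau_gau (c c' : I → J → E) (z : Cfg io I E) :
    (z.gau c').gau c = z.gau fun q j => c q j * c' q j := by
  simp only [Cfg.gau, sclS_sclS, mul_assoc, mul_pow, Finset.prod_mul_distrib]

theorem map_gau (θ : K →ₐ[ℂ] L) (c : I → J → K) (z : Cfg io I K) :
    (z.gau c).map θ = (z.map θ).gau fun q j => θ (c q j) := by
  simp only [Cfg.gau, Cfg.map, mapS_sclS, map_mul, map_prod, map_pow]

/-! ### reduction -/

theorem nrm_ne (V : RZ ℂ E) (z : Cfg io I E) (q : I) (j : J) : z.nrm V q j ≠ 0 :=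
  inv_ne_zero (gen_ne _ _)

theorem v_nrm (V : RZ ℂ E) (z : Cfg io I E) (q : I) (j : J) :
    V.v (z.nrm V q j) = ((ln (z.y q) j).val V)⁻¹ := by rw [Cfg.nrm, map_inv₀, v_gen]

theorem nrm_mem (V : RZ ℂ E) (z : Cfg io I E) (q : I) (j : J) (i : io j) :
    (z.gau (z.nrm V)).y q j i ∈ V.1 := by
  rw [← RZ.le_one_iff]
  change V.v (_ * _) ≤ 1
  rw [map_mul, v_nrm, inv_mul_le_one₀ (val_pos _ _)]
  exact mem_Sec_mxf (z.y q j) i V

theorem prim_nrm (V : RZ ℂ E) {z : Cfg io I E} (h : z.NZ) (q : I) :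
    Prim V ((z.gau (z.nrm V)).y q) := fun j => ⟨nrm_mem V z q j, by
  obtain ⟨i, hi⟩ := exists_val_mxf (k := ℂ) (h q j) V
  refine ⟨i, ?_⟩
  change V.v (_ * _) = 1
  rw [map_mul, v_nrm, hi]
  exact inv_mul_cancel₀ (val_ne _ _)⟩

theorem nz_redP {p : Pl ℂ K ℂ E} {y : Pnt io K} (h : Prim p.V y) : NZ (redP p y) :=
  fun j => (h j).2.imp fun _ hi => Pl.r_ne_zero_iff.2 hi

theorem nz_red (p : Pl ℂ K ℂ E) {z : Cfg io I K} (h : z.NZ) : (z.red p).NZ :=
  fun q => nz_redP (prim_nrm p.V h q)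

theorem redS_sclS (p : Pl ℂ K ℂ E) {u : P → K} (hu : ∀ x, p.V.v (u x) = 1)
    (U : Submodule K (P → K)) : redS p (sclS u U) = sclS (fun x => p.r (u x)) (redS p U) := by
  have h1 : ∀ x, u x ∈ p.V.1 := fun x => RZ.le_one_iff.1 (hu x).le
  have h2 : ∀ x, p.r (u x) ≠ 0 := fun x => Pl.r_ne_zero_iff.2 (hu x)
  symm
  refine Submodule.eq_of_le_of_finrank_eq ?_ ?_
  · rw [sclS, Submodule.map_le_iff_le_comap]
    refine redS_le fun w hw hi => ?_
    have h3 := red_mem_redS (p := p) (U := sclS u U) (u := fun x => u x * w x) ⟨w, hw, rfl⟩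
      fun x => mul_mem (h1 x) (hi x)
    simp only [Pl.r_mul (h1 _) (hi _)] at h3
    exact h3
  · rw [finrank_sclS h2, finrank_redS, finrank_redS,
      finrank_sclS fun x => RZ.ne_zero_iff.1 (hu x ▸ one_ne_zero)]

theorem red0_gau (p : Pl ℂ K ℂ E) {u : I → J → K} (hu : ∀ q j, p.V.v (u q j) = 1)
    {z : Cfg io I K} (hz : ∀ q j i, z.y q j i ∈ p.V.1) :
    (z.gau u).red0 p = (z.red0 p).gau fun q j => p.r (u q j) := by
  have h1 : ∀ q j, u q j ∈ p.V.1 := fun q j => RZ.le_one_iff.1 (hu q j).le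
  simp only [Cfg.gau, Cfg.red0]
  congr 1
  · funext q j i
    exact Pl.r_mul (h1 q j) (hz q j i)
  · funext κ
    rw [redS_sclS p fun q => by simp [hu]]
    congr 1
    funext q
    rw [r_prod _ fun j _ => pow_mem (h1 q j) _]
    exact Finset.prod_congr rfl fun j _ => Pl.r_pow (h1 q j) _

/-- a commuting square of places and field embeddings -/
structure Sq (θ : K →ₐ[ℂ] L) (p : Pl ℂ K ℂ E) (q : Pl ℂ L ℂ E') (ρ : E →ₐ[ℂ] E') : Prop where
  mem : ∀ x, θ x ∈ q.V.1 ↔ x ∈ p.V.1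
  r : ∀ x, q.r (θ x) = ρ (p.r x)

variable {θ : K →ₐ[ℂ] L} {p : Pl ℂ K ℂ E} {q : Pl ℂ L ℂ E'} {ρ : E →ₐ[ℂ] E'}

theorem Sq.V_eq (h : Sq θ p q ρ) : cm (θ : K →+* L) (alg_ov θ) q.V = p.V :=
  Subtype.ext (ValuationSubring.ext _ _ h.mem)

theorem Sq.redS (h : Sq θ p q ρ) (U : Submodule K (P → K)) :
    redS q (mapS θ U) = mapS ρ (redS p U) := by
  symm
  refine Submodule.eq_of_le_of_finrank_eq ?_ ?_
  · rw [mapS, Submodule.span_le]
    rintro _ ⟨w, hw, rfl⟩
    induction hw using Submodule.span_induction with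
    | mem w hw =>
      obtain ⟨u, hu, hi, rfl⟩ := hw
      simp only [← h.r]
      exact red_mem_redS (map_mem_mapS θ hu) fun x => (h.mem _).2 (hi x)
    | zero =>
      simp only [Pi.zero_apply, map_zero]
      exact zero_mem _
    | add a b _ _ ha hb =>
      simp only [Pi.add_apply, map_add]
      exact add_mem ha hb
    | smul c a _ ha =>
      simp only [Pi.smul_apply, smul_eq_mul, map_mul]
      exact Submodule.smul_mem _ (ρ c) ha
  · rw [finrank_mapS, finrank_redS, finrank_redS, finrank_mapS]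

theorem Sq.red0 (h : Sq θ p q ρ) (z : Cfg io I K) : (z.map θ).red0 q = (z.red0 p).map ρ := by
  simp only [Cfg.map, Cfg.red0, h.redS]
  congr 1
  funext x j i
  exact h.r _

/-- **reduction commutes with a square of places up to gauge** -/
theorem Sq.red (h : Sq θ p q ρ) (z : Cfg io I K) : ∃ c : I → J → E', (∀ x j, c x j ≠ 0) ∧
    (z.map θ).red q = ((z.red p).map ρ).gau c := by
  let u : I → J → L := fun x j => (z.map θ).nrm q.V x j / θ (z.nrm p.V x j)
  have h0 : ∀ x j, θ (z.nrm p.V x j) ≠ 0 := fun x j => (map_ne_zero θ).2 (nrm_ne _ _ _ _)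
  have hu : ∀ x j, q.V.v (u x j) = 1 := fun x j => by
    rw [map_div₀, div_eq_one_iff_eq (RZ.ne_zero_iff.2 (h0 x j)), v_nrm, Cfg.nrm, map_inv₀,
      map_inv₀, inv_inj, ← h.V_eq]
    exact (congrArg (BD.val · q.V) (ln_map θ (z.y x) j)).trans (val_mp_gen _ _)
  refine ⟨fun x j => q.r (u x j), fun x j => Pl.r_ne_zero_iff.2 (hu x j), ?_⟩
  rw [Cfg.red, Cfg.red, ← h.red0, ← red0_gau q hu fun x j i => (h.mem _).2 (nrm_mem p.V z x j i),
    map_gau, gau_gau]
  simp only [u, div_mul_cancel₀ _ (h0 _ _)]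

theorem le_val_sz (u : P → K) (a : P → BD ℂ K) (V : RZ ℂ K) (x : P) :
    V.v (u x) ≤ (sz u a).val V * (a x).val V := by
  classical
  by_cases hx : u x = 0
  · simp [hx]
  have h1 : x ∈ Finset.univ.filter fun x => u x ≠ 0 := by simpa using hx
  rw [sz, dif_pos ⟨x, by convert h1⟩, ← div_le_iff₀ (val_pos _ _), ← val_pr hx, ← val_sub]
  exact Finset.le_sup' (fun x => pr ℂ (u x) - a x) (by convert h1) V

theorem exists_val_sz {u : P → K} (hu : u ≠ 0) (a : P → BD ℂ K) (V : RZ ℂ K) :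
    ∃ x, u x ≠ 0 ∧ V.v (u x) = (sz u a).val V * (a x).val V := by
  classical
  obtain ⟨x, hx⟩ := Function.ne_iff.1 hu
  have h1 : (Finset.univ.filter fun x => u x ≠ 0).Nonempty := ⟨x, by simpa using hx⟩
  rw [sz, dif_pos (by convert h1)]
  have h2 := Finset.apply_sup'_eq_sup'_comp (f := fun x => pr ℂ (u x) - a x) h1
    (fun b : BD ℂ K => b.val V) fun b c => val_sup b c V
  obtain ⟨y, hy, h3⟩ := Finset.exists_mem_eq_sup' h1 fun x => (pr ℂ (u x) - a x).val V
  have h4 : u y ≠ 0 := by simpa using hy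
  refine ⟨y, h4, ?_⟩
  rw [← div_eq_iff (val_ne _ _), ← val_pr h4, ← val_sub, ← h3]
  convert h2.symm
  rfl

theorem sz_zero (a : P → BD ℂ K) : sz (0 : P → K) a = 0 := by simp [sz]

theorem r_pv (hp : ∀ c, p.r (algebraMap ℂ K c) = algebraMap ℂ E c) {y : Pnt io K}
    (hy : ∀ j i, y j i ∈ p.V.1) (f : MvPolynomial (Vr io) ℂ) :
    pv y f ∈ p.V.1 ∧ p.r (pv y f) = pv (redP p y) f := by
  unfold pv
  induction f using MvPolynomial.induction_on with
  | C c => simpa using ⟨p.V.2 c, hp c⟩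
  | add f f' h h' =>
    rw [map_add, map_add, Pl.r_add h.1 h'.1, h.2, h'.2]
    exact ⟨add_mem h.1 h'.1, rfl⟩
  | mul_X f v h =>
    rw [map_mul, map_mul, MvPolynomial.aeval_X, MvPolynomial.aeval_X, Pl.r_mul h.1 (hy _ _), h.2]
    exact ⟨mul_mem h.1 (hy _ _), rfl⟩

theorem v_chr_nrm (V : RZ ℂ K) (z : Cfg io I K) (x : A × I) :
    V.v (chr (z.nrm V x.2) (T.k x.1)) = ((z.ea T x).val V)⁻¹ := by
  simp only [chr, map_prod, map_pow, v_nrm, Cfg.ea, lw, val_sum, val_nsmul, inv_pow,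
    Finset.prod_inv_distrib]

/-- the reduction along a component of the zero divisor lies on the target -/
theorem on_red (hp : ∀ c, p.r (algebraMap ℂ K c) = algebraMap ℂ E c) (z : Cfg io I K)
    (h : (z.dv T).val p.V ≠ 1) : (z.red p).On T := by
  have h0 : z.sv T ≠ 0 := fun h0 => h (by rw [Cfg.dv, h0, sz_zero, neg_zero, val_zero])
  have h1 : ∀ x, p.V.v ((z.gau (z.nrm p.V)).sv T x) = p.V.v (z.sv T x) / (z.ea T x).val p.V :=
    fun x => by rw [sv_gau, map_mul, v_chr_nrm, div_eq_inv_mul]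
  have h2 := fun x : A × I => r_pv hp (nrm_mem p.V z x.2) (T.F x.1)
  have h3 : (sz (z.sv T) (z.ea T)).val p.V < 1 := by
    refine lt_of_le_of_ne ?_ fun e => h (by rw [Cfg.dv, val_neg, e, inv_one])
    obtain ⟨x, -, hx⟩ := exists_val_sz h0 (z.ea T) p.V
    rw [← div_eq_iff (val_ne _ _), ← h1] at hx
    exact hx ▸ RZ.le_one_iff.2 (h2 x).1
  intro x a
  refine (h2 (a, x)).2.symm.trans ((Pl.r_eq_zero (h2 (a, x)).1).2 ?_)
  refine (h1 (a, x)).trans_lt (lt_of_le_of_lt ?_ h3)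
  exact (div_le_iff₀ (val_pos _ _)).2 (le_val_sz _ _ _ _)

end Crest.Agent.X262.Val40
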