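import Crest.Agent.X262.Vb.Defs
import Crest.Agent.X262.Hb.Sat2
import Crest.Agent.X262.Wd54.Gx
import Crest.Agent.X262.Val40.Pull
import Crest.Agent.X262.Val40.Cfg

/-!
# Row 262, VAL (helper40), part 4: pull-back of virtual numbers

* `CpNat B` : naturality of `cp` for field embeddings and for scalings;
* `exc_map`, `exc_gau`, `trm_sq`, `trm_map` : the integrands correspond;
* `vir_map` : `vir (z.map θ) = deg θ * vir z`.
-/

set_option autoImplicit false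
set_option linter.unusedSectionVars false

noncomputable section

namespace Crest.Agent.X262.Val40

open Crest.Agent.X277 Crest.Agent.X277.BD Crest.Agent.X277.Pst Crest.Agent.X277.BD.Cyc Polynomial
open Crest.Agent.X262.Geo Crest.Agent.X262.Hb Crest.Agent.X262.Vb
open Crest.Agent.X262.Node22 (chr chr_ne)

/-- naturality of the top Chern polynomial -/
structure CpNat (B : Th) : Prop where
  map : ∀ {E E' P : Type} [Field E] [Algebra ℂ E] [Algebra.EssFiniteType ℂ E] [Field E']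
    [Algebra ℂ E'] [Algebra.EssFiniteType ℂ E'] [Fintype P] (ρ : E →ₐ[ℂ] E') (a : P → BD ℂ E)
    (U : Submodule E (P → E)), (B.cp a U).map (B.pb (LP.hom ρ) : B.H E →+* B.H E') =
      B.cp (fun x => pb ρ (a x)) (mapS ρ U)
  scl : ∀ {E P : Type} [Field E] [Algebra ℂ E] [Algebra.EssFiniteType ℂ E] [Fintype P]
    (c : P → E), (∀ x, c x ≠ 0) → ∀ (a : P → BD ℂ E) (U : Submodule E (P → E)),
      B.cp (fun x => a x + pr ℂ (c x)) (sclS c U) = B.cp a U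

variable {J : Type} [Fintype J] [DecidableEq J] {io : J → Type} [∀ j, Fintype (io j)]
  [∀ j, DecidableEq (io j)] {A : Type} [Fintype A] {I M : Type} [Fintype I]
  {K L E E' : Type} [Field K] [Algebra ℂ K] [Field L] [Algebra ℂ L] [Field E] [Algebra ℂ E]
  [Field E'] [Algebra ℂ E'] {B : Th} (T : Tgt io A)

theorem map_divX {R S : Type*} [Semiring R] [Semiring S] (f : R →+* S) (p : R[X]) :
    p.divX.map f = (p.map f).divX := by
  ext n
  simp [coeff_divX]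


theorem sq_rf (θ : K →ₐ[ℂ] L) (W : RZ ℂ L) : Sq θ (plV (dn θ W)) (plV W) (rf θ W) :=
  ⟨fun _ => Iff.rfl, fun x => (rf_r θ W x).symm⟩


theorem Sq.comp_eq {θ : K →ₐ[ℂ] L} {p : LP K E} {q : LP L E'} {ρ : E →ₐ[ℂ] E'}
    (h : Sq θ p.toPl q.toPl ρ) : (LP.hom θ).comp q = p.comp (LP.hom ρ) :=
  LP.ext fun x => by rw [LP.r_comp, LP.r_comp, LP.r_hom, LP.r_hom, h.r]

theorem Sq.pb {θ : K →ₐ[ℂ] L} {p : LP K E} {q : LP L E'} {ρ : E →ₐ[ℂ] E'}
    (h : Sq θ p.toPl q.toPl ρ) (hB : B.Ax) (x : B.H K) :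
    B.pb q (B.pb (LP.hom θ) x) = B.pb (LP.hom ρ) (B.pb p x) := by
  rw [← hB.pb_comp, ← hB.pb_comp, h.comp_eq]

theorem prim_top {y : Pnt io E} (h : NZ y) : Prim (RZ.top ℂ E) y :=
  fun j => ⟨fun _ => ValuationSubring.mem_top _, (h j).imp fun _ hi => RZ.v_top hi⟩

theorem rd_hom {P : Type} [Fintype P] (ρ : E →ₐ[ℂ] E') (U : Submodule E (P → E)) :
    rd (LP.hom ρ) U = mapS ρ U := by
  rw [rd, mapS]
  congr 1
  ext w
  simp only [LP.r_hom]
  exact ⟨fun ⟨x, h1, _, h2⟩ => ⟨x, h1, h2⟩, fun ⟨x, h1, h2⟩ => ⟨x, h1, fun _ => trivial, h2⟩⟩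

theorem cpNat (hB : B.Ax) : CpNat B where
  map ρ a U := by
    rw [hB.cp_rd (p := LP.hom ρ) (fun i => val_top (a i)), rd_hom]
    rfl
  scl c hc a U := hB.cp_dia hc (fun _ => rfl) U

variable [Algebra.EssFiniteType ℂ E] [Algebra.EssFiniteType ℂ E']

theorem exc_map' (hN : CpNat B) (ρ : E →ₐ[ℂ] E') (z : Cfg io I E) (δ : B.H E) :
    exc B T (z.map ρ) (B.pb (LP.hom ρ) δ) = B.pb (LP.hom ρ) (exc B T z δ) := by
  rw [exc, exc, Th.cq, Th.cq, ea_map, Eb_map, ← hN.map, ← map_divX, ← Polynomial.map_neg]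
  exact eval_map_apply (B.pb (LP.hom ρ) : B.H E →+* B.H E') δ

theorem exc_gau' (hN : CpNat B) {c : I → J → E} (hc : ∀ q j, c q j ≠ 0) {z : Cfg io I E}
    (h : z.NZ) (δ : B.H E) : exc B T (z.gau c) δ = exc B T z δ := by
  rw [exc, exc, Th.cq, Th.cq, ea_gau T hc h, Eb_gau T hc, hN.scl _ fun x => chr_ne (hc _) _]

theorem exc_map (hB : B.Ax) (ρ : E →ₐ[ℂ] E') (z : Cfg io I E) (δ : B.H E) :
    exc B T (z.map ρ) (B.pb (LP.hom ρ) δ) = B.pb (LP.hom ρ) (exc B T z δ) :=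
  exc_map' T (cpNat hB) ρ z δ

theorem exc_gau (hB : B.Ax) {c : I → J → E} (hc : ∀ q j, c q j ≠ 0) {z : Cfg io I E}
    (h : z.NZ) (δ : B.H E) : exc B T (z.gau c) δ = exc B T z δ := exc_gau' T (cpNat hB) hc h δ

variable {T}

theorem mcls_map {Φ : MFam B io M} (hΦ : MCls B T Φ) (ρ : E →ₐ[ℂ] E') {y : M → Pnt io E}
    (h : ∀ q, NZ (y q)) (h' : ∀ q, T.On (y q)) :
    Φ E' (fun q j i => ρ (y q j i)) = B.pb (LP.hom ρ) (Φ E y) := by
  rw [hΦ.nat E E' (LP.hom ρ) y (fun q => prim_top (h q)) h']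
  congr 1
  funext q j i
  exact (LP.r_hom ρ _).symm

/-- the integrands correspond along a square of places -/
theorem trm_sq (hB : B.Ax) {θ : K →ₐ[ℂ] L} {p : Pl ℂ K ℂ E} {q : Pl ℂ L ℂ E'}
    {ρ : E →ₐ[ℂ] E'} (h : Sq θ p q ρ) {z : Cfg io I K} (hz : z.NZ) (ho : (z.red p).On T)
    (m : M → I) {Φ : MFam B io M} (hΦ : MCls B T Φ) (δ : B.H E) :
    exc B T ((z.map θ).red q) (B.pb (LP.hom ρ) δ) * Φ E' (fun x => ((z.map θ).red q).y (m x)) =
      B.pb (LP.hom ρ) (exc B T (z.red p) δ * Φ E fun x => (z.red p).y (m x)) := by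
  obtain ⟨c, hc, e⟩ := h.red z
  have h1 := nz_red p hz
  have h2 : ((z.red p).map ρ).NZ := fun x => nz_map ρ (h1 x)
  rw [e, exc_gau T hB hc h2, exc_map T hB, map_mul,
    ← mcls_map hΦ ρ (fun x => h1 (m x)) fun x => ho (m x)]
  congr 1
  exact hΦ.scl E' _ (fun x => c (m x)) (fun x => hc (m x)) (fun x => h2 (m x))
    fun x => (on_map_iff T ρ).2 (ho (m x))

variable [Algebra.EssFiniteType ℂ K] [Algebra.EssFiniteType ℂ L]

theorem on_red_od {V : RZ ℂ K} (hV : Dvs V) (z : Cfg io I K) (h : od V (z.dv T) ≠ 0) :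
    (z.red (plV V)).On T := on_red T (lnr_plV V) z ((od_eq_zero hV).not.1 h)

theorem trm_map' (hB : B.Ax) (θ : K →ₐ[ℂ] L) {z : Cfg io I K} (hz : z.NZ)
    (m : M → I) {Φ : MFam B io M} (hΦ : MCls B T Φ) {W : RZ ℂ L} (hW : Dvs W)
    (hV : Dvs (dn θ W)) (h : od (dn θ W) (z.dv T) ≠ 0) :
    trm B T (z.map θ) m Φ W = B.pb (LP.hom (rf θ W)) (trm B T z m Φ (dn θ W)) := by
  have := essFT_Rf hW
  have := essFT_Rf hV
  rw [trm, trm, ← trm_sq hB (sq_rf θ W) hz (on_red_od hV z h) m hΦ, dv_map, ← hB.pb_c1_hom,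
    Sq.pb (p := LP.at (dn θ W)) (q := LP.at W) (sq_rf θ W) hB]


/-- **pull-back of virtual numbers** -/
theorem vir_map (hB : B.Ax) (θ : K →ₐ[ℂ] L) {z : Cfg io I K} (hz : z.NZ)
    (m : M → I) {Φ : MFam B io M} (hΦ : MCls B T Φ) :
    vir B T (z.map θ) m Φ = deg θ * vir B T z m Φ := by
  rw [vir, vir, dv_map]
  refine finsum_pull θ (z.dv T) _ _ fun W hW hV h => ?_
  have := essFT_Rf hW
  have := essFT_Rf hV
  rw [trm_map' hB θ hz m hΦ hW hV h, hB.deg]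

/-- **PULLBACK** -/
theorem pbStmt : PbStmt :=
  fun _ hB _ _ _ _ _ _ _ _ _ _ _ _ _ _ _ _ _ _ _ _ θ _ m _ hz hΦ => vir_map hB θ hz m hΦ

end Crest.Agent.X262.Val40
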